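import Vale.Agent.P054.T3.H637.CasePS
import Vale.Agent.P054.T3.H637.FlatBound

set_option autoImplicit false
set_option linter.all false

/-!
# P054 / T3: no `PSEdge` if the threshold is `≥ C t ^ (1 + ε)`

A class in an isotropic flat of dimension `≤ 2` has at most `C t ^ (1 + ε)` elements (the bound in
the plane with an `ε`).  Used for `n ≥ 3` at the lower end `z ≤ t ^ (-ε₁ / 2)` of the start.
-/

namespace Vale.Agent.P054.T3.H499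

open MvPolynomial Finset Module
open Vale.Agent.P054.T2
open Vale.Agent.P054.T2.SecC
open Vale.Agent.P054.T2.H163
open Vale.Agent.P054.T2.H686 (mu Qf Bf zt dists E IsoB BB)
open Vale.Agent.P054.T2.H192 (Iso)
open Vale.Agent.P054.T3.H637 (PSEdge exists_BB_le)

variable {n : ℕ} {A : Finset (ZZ n × ZZ n)} {W D : ℕ}

/-- **classes in isotropic flats of dimension at most `2`** -/
theorem exists_card_cls_le (n : ℕ) (ε : ℝ) (hε : 0 < ε) :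
    ∃ C : ℝ, 2 ≤ C ∧ ∀ (t : ℕ) (P : Finset (E n)), 1 ≤ t → (dists P).card ≤ t →
      ∀ {A : Finset (ZZ n × ZZ n)} {W D σ v : ℕ} (S : Side n A W D σ v) (B : E n ≃ₗᵢ[ℝ] E n),
        (∀ e ∈ A, ∃ r ∈ P ×ˢ P, e.2 = zt B r) → ∀ e ∈ A, Iso (S.V e) →
        finrank ℝ (S.V e) ≤ 2 → ((S.cls e).card : ℝ) ≤ C * (t : ℝ) ^ (1 + ε) := by
  classical
  obtain ⟨C, hC, h⟩ := exists_BB_le 2 ε hε
  refine ⟨C, hC, fun t P ht1 ht A W D σ v S B hA e he hI hd => ?_⟩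
  have htr : (1 : ℝ) ≤ t := by exact_mod_cast ht1
  set cl : Finset (E n × E n) := (P ×ˢ P).filter fun r => (e.1, zt B r) ∈ S.cls e with hcl
  have h1 : S.cls e ⊆ cl.image fun r => (e.1, zt B r) := by
    intro e' he'
    have h2 := S.mem_cls.1 he'
    obtain ⟨r, hr, hre⟩ := hA e' h2.1
    have h3 : e' = (e.1, zt B r) := Prod.ext h2.2.1 hre
    refine Finset.mem_image.2 ⟨r, ?_, h3.symm⟩
    rw [hcl, Finset.mem_filter]
    exact ⟨hr, h3 ▸ he'⟩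
  have h2 : ((S.cls e).card : ℝ) ≤ cl.card := by
    exact_mod_cast (Finset.card_le_card h1).trans Finset.card_image_le
  refine h2.trans ?_
  have hdiff : ∀ s ∈ cl, ∀ s' ∈ cl, zt B s - zt B s' ∈ S.V e := by
    intro s hs s' hs'
    rw [hcl, Finset.mem_filter] at hs hs'
    have h3 := (S.V e).sub_mem (S.sub_mem_V hs.2) (S.sub_mem_V hs'.2)
    rwa [sub_sub_sub_cancel_right] at h3
  have h3 := Vale.Agent.P054.T2.H686.card_isotropic_le P B ht (S.V e) rfl hI cl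
    (Finset.filter_subset _ _) hdiff (h (finrank ℝ (S.V e)) hd t ht1)
  refine h3.trans ?_
  have hx1 : H637.hx (finrank ℝ (S.V e)) ≤ 1 := by
    have h4 := H637.hx_le hd le_rfl
    norm_num at h4
    exact h4
  have hC0 : (0 : ℝ) ≤ C := by linarith
  exact mul_le_mul_of_nonneg_left (Real.rpow_le_rpow_of_exponent_le htr (by linarith)) hC0

/-- **no `PSEdge` above the threshold `C t ^ (1 + ε)`** -/
theorem exists_psEdge_empty (n : ℕ) (ε : ℝ) (hε : 0 < ε) :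
    ∃ C : ℝ, 2 ≤ C ∧ ∀ (t : ℕ) (P : Finset (E n)), 1 ≤ t → (dists P).card ≤ t →
      ∀ {A : Finset (ZZ n × ZZ n)} {W D σ₁ σ₂ v₁ v₂ : ℕ} (S₁ : Side n A W D σ₁ v₂)
        (S₂ : Side n (swp A) W D σ₂ v₁) (B : E n ≃ₗᵢ[ℝ] E n),
        (∀ e ∈ A, ∃ r ∈ P ×ˢ P, e.2 = zt B r) → ∀ (G₁ G₂ : ℕ),
        C * (t : ℝ) ^ (1 + ε) ≤ G₁ → ∀ e ∈ A, ¬ PSEdge S₁ S₂ G₁ G₂ e := by
  obtain ⟨C, hC, h⟩ := exists_card_cls_le n ε hε
  refine ⟨C, hC, fun t P ht1 ht A W D σ₁ σ₂ v₁ v₂ S₁ S₂ B hA G₁ G₂ hG e he hP => ?_⟩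
  have h1 := h t P ht1 ht S₁ B hA e he hP.iso hP.dim
  have h2 : (G₁ : ℝ) < (S₁.cls e).card := by exact_mod_cast hP.big₁
  linarith

open Classical in
/-- the filter of the `PSEdge`s is empty -/
theorem exists_psEdge_filter (n : ℕ) (ε : ℝ) (hε : 0 < ε) :
    ∃ C : ℝ, 2 ≤ C ∧ ∀ (t : ℕ) (P : Finset (E n)), 1 ≤ t → (dists P).card ≤ t →
      ∀ {A : Finset (ZZ n × ZZ n)} {W D σ₁ σ₂ v₁ v₂ : ℕ} (S₁ : Side n A W D σ₁ v₂)
        (S₂ : Side n (swp A) W D σ₂ v₁) (B : E n ≃ₗᵢ[ℝ] E n),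
        (∀ e ∈ A, ∃ r ∈ P ×ˢ P, e.2 = zt B r) → ∀ (G₁ G₂ : ℕ),
        C * (t : ℝ) ^ (1 + ε) ≤ G₁ → (A.filter fun e => PSEdge S₁ S₂ G₁ G₂ e).card = 0 := by
  obtain ⟨C, hC, h⟩ := exists_psEdge_empty n ε hε
  refine ⟨C, hC, fun t P ht1 ht A W D σ₁ σ₂ v₁ v₂ S₁ S₂ B hA G₁ G₂ hG => ?_⟩
  rw [Finset.card_eq_zero, Finset.filter_eq_empty_iff]
  exact fun e he => h t P ht1 ht S₁ S₂ B hA G₁ G₂ hG e he

end Vale.Agent.P054.T3.H499
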