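import Vale.Agent.P054.T3.H461.MC1
import Vale.Agent.P054.T3.H499.PSEmpty

set_option autoImplicit false
set_option linter.all false

/-!
# P054 / T3: `PSHyp` with `Ψ = 0`, `Rb = 0` if all thresholds are `≥ C t ^ (1 + ε)`
-/

namespace Vale.Agent.P054.T3.H499

open Finset MvPolynomial Module
open Vale.Agent.P054.T2 Vale.Agent.P054.T2.SecC
open Vale.Agent.P054.T2.H163
open Vale.Agent.P054.T2.H307 (Ed)
open Vale.Agent.P054.T2.H686 (dists Ez E Ez_pairs zt)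
open Vale.Agent.P054.T3.H461 (PSHyp)
open Vale.Agent.P054.T3.H637 (PSEdge)

/-- **the planar block is empty above `C t ^ (1 + ε)`** -/
theorem exists_psHyp_empty (n : ℕ) (ε : ℝ) (hε : 0 < ε) :
    ∃ C : ℝ, 2 ≤ C ∧ ∀ (t : ℕ) (P : Finset (E n)), 1 ≤ t → (dists P).card ≤ t →
      ∀ (B : E n ≃ₗᵢ[ℝ] E n) (k : ℕ) (E₀ : Finset (Ed n ℝ)), E₀ ⊆ Ez P B k →
      ∀ (τ ell : ℕ) (Θ M Ψ Rb : ℕ → ℕ), (∀ h ≤ ell, C * (t : ℝ) ^ (1 + ε) ≤ M h) →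
        PSHyp n P B E₀ τ ell Θ M Ψ Rb := by
  classical
  obtain ⟨C, hC, h⟩ := exists_psEdge_filter n ε hε
  refine ⟨C, hC, fun t P ht1 ht B k E₀ hE₀ τ ell Θ M Ψ Rb hM => ?_⟩
  intro h' hh' E₂ hE₂ W D c₀ dF d1 d2 O hW1 hW hD hd1 hd2 hd1' hd2' hEB
  have hA : ∀ e ∈ O.A, ∃ r ∈ P ×ˢ P, e.2 = zt B r := by
    intro e he
    obtain ⟨s, hs, r, hr, rfl, -⟩ := Ez_pairs (hE₀ (hE₂ (O.sub he)))
    exact ⟨r, hr, rfl⟩
  have h1 := h t P ht1 ht O.S₁ O.S₂ B hA (M h') (M h') (hM h' hh')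
  have h2 : (O.A.filter fun e => PSEdge O.S₁ O.S₂ (M h') (M h') e).card = 0 := by
    rw [← h1]
  exact h2.le.trans (Nat.zero_le _)

end Vale.Agent.P054.T3.H499
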